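import Vale.Agent.P042.Bdl.B1
set_option autoImplicit false

/-! Block W5: compatible approximate roots of a squarefree intersective polynomial. -/

namespace Vale.Agent.P042.WA.W5

open Polynomial

/-- compatible roots modulo the powers of `p`, the derivative has valuation `e` -/
structure RootAt (h : ℤ[X]) (p e : ℕ) (r : ℕ → ℤ) : Prop where
  comp : ∀ i : ℕ, (p : ℤ) ^ i ∣ r (i + 1) - r i
  root : ∀ (i : ℕ) (x : ℤ), (p : ℤ) ^ i ∣ x - r i → (p : ℤ) ^ i ∣ h.eval x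
  root' : ∀ (i : ℕ) (x : ℤ), e + 1 ≤ i → (p : ℤ) ^ i ∣ x - r i → (p : ℤ) ^ (i + e) ∣ h.eval x
  der : ∀ (i : ℕ) (x : ℤ), e + 1 ≤ i → (p : ℤ) ^ i ∣ x - r i →
    ¬ (p : ℤ) ^ (e + 1) ∣ (derivative h).eval x

lemma int_dvd_iff (p : ℕ) [Fact p.Prime] (i : ℕ) (x : ℤ) :
    ((p : ℤ_[p]) ^ i ∣ (x : ℤ_[p])) ↔ (p : ℤ) ^ i ∣ x := by
  rw [← PadicInt.pow_p_dvd_int_iff]

lemma eval_int (p : ℕ) [Fact p.Prime] (h : ℤ[X]) (x : ℤ) :
    (h.map (Int.castRingHom ℤ_[p])).eval (x : ℤ_[p]) = ((h.eval x : ℤ) : ℤ_[p]) := by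
  simp only [eval_intCast_map, Int.cast_eq, eq_intCast]

theorem exists_rootAt (h : ℤ[X]) (hk : 1 ≤ h.natDegree) (hint : Intersective h)
    (hc : IsCoprime (h.map (Int.castRingHom ℚ)) ((derivative h).map (Int.castRingHom ℚ))) :
    ∃ c : ℤ, c ≠ 0 ∧ ∀ p : ℕ, p.Prime → ∃ (e : ℕ) (r : ℕ → ℤ), RootAt h p e r ∧ (p : ℤ) ^ e ∣ c := by
  obtain ⟨U, V, c, hc0, hUV⟩ := aux_bezout h (derivative h) (by omega) hc
  refine ⟨c, hc0, fun p hp => ?_⟩
  have : Fact p.Prime := ⟨hp⟩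
  obtain ⟨z, hz⟩ := aux_padic_root h hint p
  set φ := Int.castRingHom ℤ_[p] with hφ
  set d := ((derivative h).map φ).eval z with hd
  have h1 : d * (V.map φ).eval z = (c : ℤ_[p]) := by
    have h2 := congrArg (fun q : ℤ[X] => (q.map φ).eval z) hUV
    simp only [Polynomial.map_add, Polynomial.map_mul, Polynomial.map_C, eval_add, eval_mul,
      eval_C] at h2
    rw [hz, zero_mul, zero_add] at h2
    rw [hd, h2, hφ]
    simp
  have hcz : (c : ℤ_[p]) ≠ 0 := by exact_mod_cast hc0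
  have hd0 : d ≠ 0 := by
    intro h0
    rw [h0, zero_mul] at h1
    exact hcz h1.symm
  set e := d.valuation with he
  have hpe : (p : ℤ_[p]) ^ e ∣ d := by
    rw [← PadicInt.mem_span_pow_iff_le_valuation d hd0 e |>.symm.trans Ideal.mem_span_singleton]
  have hpe' : ¬ (p : ℤ_[p]) ^ (e + 1) ∣ d := by
    intro h3
    have h4 := (PadicInt.mem_span_pow_iff_le_valuation d hd0 (e + 1)).1
      (Ideal.mem_span_singleton.2 h3)
    omega
  have key : ∀ (i : ℕ) (x : ℤ), (p : ℤ) ^ i ∣ x - (z.appr i : ℤ) →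
      (p : ℤ_[p]) ^ i ∣ (x : ℤ_[p]) - z := by
    intro i x hx
    have h3 : (p : ℤ_[p]) ^ i ∣ z - (z.appr i : ℤ_[p]) :=
      Ideal.mem_span_singleton.1 (PadicInt.appr_spec i z)
    have h4 : (p : ℤ_[p]) ^ i ∣ ((x - (z.appr i : ℤ) : ℤ) : ℤ_[p]) := (int_dvd_iff p i _).2 hx
    have h5 : (x : ℤ_[p]) - z = ((x - (z.appr i : ℤ) : ℤ) : ℤ_[p]) - (z - (z.appr i : ℤ_[p])) := by
      push_cast
      ring
    rw [h5]
    exact dvd_sub h4 h3
  refine ⟨e, fun i => (z.appr i : ℤ), ⟨?_, ?_, ?_, ?_⟩, ?_⟩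
  · intro i
    rw [← int_dvd_iff]
    have h3 : (p : ℤ_[p]) ^ i ∣ z - (z.appr i : ℤ_[p]) :=
      Ideal.mem_span_singleton.1 (PadicInt.appr_spec i z)
    have h4 : (p : ℤ_[p]) ^ (i + 1) ∣ z - (z.appr (i + 1) : ℤ_[p]) :=
      Ideal.mem_span_singleton.1 (PadicInt.appr_spec (i + 1) z)
    have h5 : (((z.appr (i + 1) : ℤ) - (z.appr i : ℤ) : ℤ) : ℤ_[p]) =
        (z - (z.appr i : ℤ_[p])) - (z - (z.appr (i + 1) : ℤ_[p])) := by
      push_cast
      ring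
    rw [h5]
    exact dvd_sub h3 ((pow_dvd_pow _ (Nat.le_succ i)).trans h4)
  · intro i x hx
    have h3 := key i x hx
    have h4 := Polynomial.sub_dvd_eval_sub (x : ℤ_[p]) z (h.map φ)
    rw [hz, sub_zero, eval_int] at h4
    exact (int_dvd_iff p i _).1 (h3.trans h4)
  · intro i x hi hx
    have h3 := key i x hx
    obtain ⟨w, hw⟩ := Polynomial.binomExpansion (h.map φ) z ((x : ℤ_[p]) - z)
    rw [add_sub_cancel, hz, zero_add, eval_int, Polynomial.derivative_map, ← hd] at hw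
    rw [← int_dvd_iff, hw]
    apply dvd_add
    · rw [add_comm, pow_add]
      exact mul_dvd_mul hpe h3
    · apply Dvd.dvd.mul_left
      have h4 : (p : ℤ_[p]) ^ (i + e) ∣ ((p : ℤ_[p]) ^ i) ^ 2 := by
        rw [← pow_mul]
        exact pow_dvd_pow _ (by omega)
      exact h4.trans (pow_dvd_pow_of_dvd h3 2)
  · intro i x hi hx hcon
    have h3 := key i x hx
    have h4 := Polynomial.sub_dvd_eval_sub (x : ℤ_[p]) z ((derivative h).map φ)
    rw [eval_int, ← hd] at h4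
    apply hpe'
    have h5 : (p : ℤ_[p]) ^ (e + 1) ∣ (((derivative h).eval x : ℤ) : ℤ_[p]) :=
      (int_dvd_iff p _ _).2 hcon
    have h6 : (p : ℤ_[p]) ^ (e + 1) ∣ (((derivative h).eval x : ℤ) : ℤ_[p]) - d :=
      (pow_dvd_pow _ hi).trans (h3.trans h4)
    have h7 := dvd_sub h5 h6
    rwa [sub_sub_cancel] at h7
  · rw [← int_dvd_iff]
    exact hpe.trans (Dvd.intro _ h1)

end Vale.Agent.P042.WA.W5
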