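import Vale.Agent.P042.WA.W5.Fib
import Vale.Agent.P042.WA.W5.Root
set_option autoImplicit false

/-! Block W5: means of normalised indicators of residue classes. -/

namespace Vale.Agent.P042.WA.W5

open Polynomial Finset
open Vale.Agent.P042.PS748 (Per class_mean sum_affine mn_dvd)

lemma mn_eq (h : ℤ[X]) (u : ℤ → ℝ) (n q : ℕ) (a : ℤ) :
    PS463.mn h u n q a = PS748.mn (n * q) (fun x => (u x : ℂ) * ph h a q x) := rfl

/-- normalised indicator of a residue class modulo `p ^ i` -/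
noncomputable def cls (p i : ℕ) (r : ℤ) (x : ℤ) : ℝ := if (p : ℤ) ^ i ∣ x - r then (p : ℝ) ^ i else 0

lemma cls_zero (p : ℕ) (r x : ℤ) : cls p 0 r x = 1 := by simp [cls]

lemma cls_nonneg (p i : ℕ) (r x : ℤ) : 0 ≤ cls p i r x := by
  unfold cls; split_ifs <;> positivity

lemma cls_le (p i : ℕ) (r x : ℤ) : cls p i r x ≤ (p : ℝ) ^ i := by
  unfold cls; split_ifs
  · exact le_rfl
  · positivity

lemma cls_per (p i m : ℕ) (him : i ≤ m) (r x : ℤ) : cls p i r (x + (p ^ m : ℕ)) = cls p i r x := by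
  unfold cls
  have : ((p : ℤ) ^ i ∣ (x + (p ^ m : ℕ)) - r) ↔ ((p : ℤ) ^ i ∣ x - r) := by
    push_cast
    rw [show x + (p : ℤ) ^ m - r = (x - r) + (p : ℤ) ^ m by ring]
    exact dvd_add_left (pow_dvd_pow _ him)
  simp only [this]

/-- the mean of the phase over a residue class -/
noncomputable def GG (h : ℤ[X]) (p : ℕ) (a : ℤ) (i j : ℕ) (r : ℤ) : ℂ :=
  PS748.mn (p ^ j) (fun y => ph h a (p ^ j) (r + (p : ℤ) ^ i * y))

lemma mn_cls (h : ℤ[X]) (p : ℕ) (hp : p.Prime) (a : ℤ) (i m j : ℕ) (him : i ≤ m) (r : ℤ) :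
    PS463.mn h (cls p i r) (p ^ m) (p ^ j) a = GG h p a i j r := by
  have hpi : 1 ≤ p ^ i := Nat.one_le_pow _ _ hp.pos
  have hpj : 1 ≤ p ^ j := Nat.one_le_pow _ _ hp.pos
  have hpm : 1 ≤ p ^ m := Nat.one_le_pow _ _ hp.pos
  rw [mn_eq]
  have hper : Per (p ^ i * p ^ j) (fun x => (cls p i r x : ℂ) * ph h a (p ^ j) x) := by
    apply Per.mul
    · have h1 : Per (p ^ i) (fun x => (cls p i r x : ℂ)) := by
        intro x
        simp only [cls_per p i i le_rfl]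
      exact h1.dvd (Dvd.intro _ rfl)
    · exact (ph_per h a (p ^ j) hpj).dvd (Dvd.intro_left _ rfl)
  rw [mn_dvd (L := p ^ i * p ^ j) (Nat.mul_pos hpm hpj) (Nat.mul_dvd_mul_right (pow_dvd_pow p him) _)
    hper]
  have h2 := class_mean hpi hpj r (ph_per h a (p ^ j) hpj)
  unfold GG
  have h3 : ((p ^ i : ℕ) : ℤ) = (p : ℤ) ^ i := by push_cast; rfl
  rw [h3] at h2
  rw [← h2]
  unfold PS748.mn
  rw [← mul_div_assoc, Finset.mul_sum]
  congr 1
  refine Finset.sum_congr rfl fun x _ => ?_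
  unfold cls
  beta_reduce
  split_ifs <;> push_cast <;> ring

lemma mn_const (L : ℕ) (hL : 1 ≤ L) (f : ℤ → ℂ) (c : ℂ) (hf : ∀ x, f x = c) : PS748.mn L f = c := by
  unfold PS748.mn
  simp only [hf, Finset.sum_const, card_range, nsmul_eq_mul]
  have : (L : ℂ) ≠ 0 := by exact_mod_cast (by omega : L ≠ 0)
  field_simp

lemma norm_GG_le (h : ℤ[X]) (p : ℕ) (hp : p.Prime) (a : ℤ) (i j : ℕ) (r : ℤ) :
    ‖GG h p a i j r‖ ≤ 1 := by
  have hpj : 1 ≤ p ^ j := Nat.one_le_pow _ _ hp.pos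
  unfold GG PS748.mn
  rw [norm_div, Complex.norm_natCast, div_le_one (by exact_mod_cast hpj)]
  refine (norm_sum_le _ _).trans ?_
  simp only [norm_ph, Finset.sum_const, card_range, nsmul_eq_mul, mul_one]
  exact le_rfl

section root

variable {h : ℤ[X]} {p d : ℕ} {r : ℕ → ℤ}

lemma GG_low (hR : RootAt h p d r) (hp : p.Prime) (a : ℤ) (i j : ℕ) (hij : j ≤ i) :
    GG h p a i j (r i) = 1 := by
  have hpj : 1 ≤ p ^ j := Nat.one_le_pow _ _ hp.pos
  apply mn_const _ hpj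
  intro y
  apply ph_one h a _ hpj
  push_cast
  refine (pow_dvd_pow _ hij).trans (hR.root i _ ⟨y, by ring⟩)

lemma GG_mid (hR : RootAt h p d r) (hp : p.Prime) (a : ℤ) (i j : ℕ) (hi : d + 1 ≤ i)
    (hij : j ≤ i + d) : GG h p a i j (r i) = 1 := by
  have hpj : 1 ≤ p ^ j := Nat.one_le_pow _ _ hp.pos
  apply mn_const _ hpj
  intro y
  apply ph_one h a _ hpj
  push_cast
  refine (pow_dvd_pow _ hij).trans (hR.root' i _ hi ⟨y, by ring⟩)

lemma GG_high (hR : RootAt h p d r) (hp : p.Prime) (a : ℤ) (ha : IsCoprime a (p : ℤ)) (i j : ℕ)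
    (hi : d + 1 ≤ i) (hij : i + d < j) : GG h p a i j (r i) = 0 :=
  fib_zero h p hp (r i) i d j hi hij (hR.der i _ hi ⟨0, by ring⟩) a ha

end root

lemma mn_lin (h : ℤ[X]) (u w : ℤ → ℝ) (α β : ℝ) (n q : ℕ) (a : ℤ) :
    PS463.mn h (fun x => α * u x + β * w x) n q a =
      (α : ℂ) * PS463.mn h u n q a + (β : ℂ) * PS463.mn h w n q a := by
  unfold PS463.mn
  rw [mul_div_assoc', mul_div_assoc', ← add_div, Finset.mul_sum, Finset.mul_sum,
    ← Finset.sum_add_distrib]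
  congr 1
  refine Finset.sum_congr rfl fun x _ => ?_
  push_cast
  ring

end Vale.Agent.P042.WA.W5
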