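import Vale.Agent.P042.PS748.A6
import Vale.Agent.P042.PS463.Spec
set_option autoImplicit false

/-! Block W5: means over residue classes. -/

namespace Vale.Agent.P042.WA.W5

open Polynomial Finset
open Vale.Agent.P042.PS748 (Per class_mean sum_affine)

/-- the phase -/
noncomputable def ph (h : ℤ[X]) (a : ℤ) (q : ℕ) (x : ℤ) : ℂ :=
  e ((a : ℝ) * ((h.eval x : ℤ) : ℝ) / (q : ℝ))

lemma ph_per (h : ℤ[X]) (a : ℤ) (q : ℕ) (hq : 1 ≤ q) : Per q (ph h a q) := by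
  intro x
  unfold ph
  have := e_eval_periodic h a q hq x 1
  rw [show (q : ℤ) * 1 + x = x + q by ring] at this
  exact this

lemma norm_ph (h : ℤ[X]) (a : ℤ) (q : ℕ) (x : ℤ) : ‖ph h a q x‖ = 1 := by
  unfold ph e
  exact Complex.norm_exp_ofReal_mul_I _

lemma ph_one (h : ℤ[X]) (a : ℤ) (q : ℕ) (hq : 1 ≤ q) (x : ℤ) (hx : (q : ℤ) ∣ h.eval x) :
    ph h a q x = 1 := by
  obtain ⟨m, hm⟩ := hx
  unfold ph
  have hq0 : (q : ℝ) ≠ 0 := by exact_mod_cast (by omega : q ≠ 0)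
  rw [hm]
  have : (a : ℝ) * (((q : ℤ) * m : ℤ) : ℝ) / (q : ℝ) = ((a * m : ℤ) : ℝ) := by
    push_cast
    field_simp
  rw [this, e_int]

lemma ph_fib_per (h : ℤ[X]) (a : ℤ) (q : ℕ) (hq : 1 ≤ q) (x0 m : ℤ) :
    Per q (fun y => ph h a q (x0 + m * y)) := by
  intro y
  apply (ph_per h a q hq).congr
  exact ⟨m, by ring⟩

lemma fib_zero (h : ℤ[X]) (p : ℕ) (hp : p.Prime) (x0 : ℤ) (i d j : ℕ) (hi : d + 1 ≤ i)
    (hj : i + d < j) (hder : ¬ (p : ℤ) ^ (d + 1) ∣ (derivative h).eval x0) (a : ℤ)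
    (ha : IsCoprime a (p : ℤ)) :
    PS748.mn (p ^ j) (fun y => ph h a (p ^ j) (x0 + (p : ℤ) ^ i * y)) = 0 := by
  have hpj : 1 ≤ p ^ j := Nat.one_le_pow _ _ hp.pos
  have : NeZero (p ^ j) := ⟨by omega⟩
  have hp0 : (p : ℝ) ≠ 0 := by exact_mod_cast hp.ne_zero
  set g : ℤ → ℂ := fun y => ph h a (p ^ j) (x0 + (p : ℤ) ^ i * y) with hg
  have hper : Per (p ^ j) g := ph_fib_per h a (p ^ j) hpj x0 _
  obtain ⟨t, ht⟩ : ∃ t, j = i + d + 1 + t := ⟨j - (i + d + 1), by omega⟩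
  set ζ : ℂ := e ((a : ℝ) * (((derivative h).eval x0 : ℤ) : ℝ) / (p : ℝ) ^ (d + 1)) with hζ
  have hshift : ∀ y : ℤ, g ((p : ℤ) ^ t + 1 * y) = g y * ζ := by
    intro y
    simp only [hg]
    unfold ph
    rw [hζ, ← e_add]
    set x1 : ℤ := x0 + (p : ℤ) ^ i * y with hx1
    have e1 : x0 + (p : ℤ) ^ i * ((p : ℤ) ^ t + 1 * y) = x1 + (p : ℤ) ^ (i + t) := by
      rw [hx1, pow_add]; ring
    obtain ⟨k, hk⟩ := Polynomial.binomExpansion h x1 ((p : ℤ) ^ (i + t))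
    obtain ⟨m, hm⟩ := Polynomial.sub_dvd_eval_sub x1 x0 (derivative h)
    have hm' : (derivative h).eval x1 = (derivative h).eval x0 + (p : ℤ) ^ i * y * m := by
      have : x1 - x0 = (p : ℤ) ^ i * y := by rw [hx1]; ring
      rw [this] at hm
      linear_combination hm
    rw [e1, hk, hm']
    obtain ⟨u, hu⟩ : ∃ u, i = d + 1 + u := ⟨i - (d + 1), by omega⟩
    have e2 : (a : ℝ) * (((eval x1 h + (eval x0 (derivative h) + (p : ℤ) ^ i * y * m) * (p : ℤ) ^ (i + t) +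
        k * ((p : ℤ) ^ (i + t)) ^ 2 : ℤ)) : ℝ) / ((p ^ j : ℕ) : ℝ) =
        ((a : ℝ) * ((eval x1 h : ℤ) : ℝ) / ((p ^ j : ℕ) : ℝ) +
          (a : ℝ) * (((derivative h).eval x0 : ℤ) : ℝ) / (p : ℝ) ^ (d + 1)) +
        ((a * (y * m * (p : ℤ) ^ u + k * (p : ℤ) ^ (u + t)) : ℤ) : ℝ) := by
      have e3 : ((p ^ j : ℕ) : ℝ) = (p : ℝ) ^ (i + t) * (p : ℝ) ^ (d + 1) := by
        push_cast
        rw [← pow_add]
        congr 1
        omega
      have h1 : (p : ℝ) ^ (d + 1) ≠ 0 := pow_ne_zero _ hp0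
      have h2 : (p : ℝ) ^ u ≠ 0 := pow_ne_zero _ hp0
      have h3 : (p : ℝ) ^ t ≠ 0 := pow_ne_zero _ hp0
      have e4 : (p : ℝ) ^ i = (p : ℝ) ^ (d + 1) * (p : ℝ) ^ u := by rw [← pow_add, hu]
      rw [e3]
      push_cast
      rw [pow_add (p : ℝ) i t, pow_add (p : ℝ) u t, e4]
      generalize (p : ℝ) ^ (d + 1) = A at *
      generalize (p : ℝ) ^ u = U at *
      generalize (p : ℝ) ^ t = T at *
      field_simp
      ring
    rw [e2, e_add, e_int, mul_one]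
  have h1 : PS748.mn (p ^ j) g = PS748.mn (p ^ j) g * ζ := by
    unfold PS748.mn
    conv_lhs => rw [← sum_affine hper ((p : ℤ) ^ t) 1 isCoprime_one_left]
    have hs : ∑ x ∈ range (p ^ j), g ((p : ℤ) ^ t + 1 * (x : ℤ)) =
        ∑ x ∈ range (p ^ j), g (x : ℤ) * ζ := Finset.sum_congr rfl fun x _ => hshift (x : ℤ)
    rw [hs, ← Finset.sum_mul]
    ring
  have h2 : ζ ≠ 1 := by
    intro h3
    rw [hζ, e_eq_one_iff] at h3
    obtain ⟨n, hn⟩ := h3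
    rw [div_eq_iff (pow_ne_zero _ hp0)] at hn
    have h4 : a * (derivative h).eval x0 = n * (p : ℤ) ^ (d + 1) := by exact_mod_cast hn
    apply hder
    have h5 : IsCoprime ((p : ℤ) ^ (d + 1)) a := ha.symm.pow_left
    exact h5.dvd_of_dvd_mul_left (Dvd.intro_left _ h4.symm)
  have h3 : PS748.mn (p ^ j) g * (1 - ζ) = 0 := by linear_combination h1
  rcases mul_eq_zero.1 h3 with h4 | h4
  · exact h4
  · exact absurd (by linear_combination (-1 : ℂ) * h4) h2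

end Vale.Agent.P042.WA.W5
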