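import Vale.Agent.P042.WA.W5.Small
import Vale.Agent.P042.WA.Spec
set_option autoImplicit false

/-! Block W5: local weights at one large prime. -/

namespace Vale.Agent.P042.WA.W5

open Polynomial Finset
open Vale.Agent.P042.PS748 (Per class_mean sum_affine mn_dvd)

lemma mn_sum {ι : Type*} (s : Finset ι) (h : ℤ[X]) (u : ι → ℤ → ℝ) (β : ι → ℝ) (n q : ℕ) (a : ℤ) :
    PS463.mn h (fun x => ∑ c ∈ s, β c * u c x) n q a = ∑ c ∈ s, (β c : ℂ) * PS463.mn h (u c) n q a := by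
  unfold PS463.mn
  simp_rw [mul_div_assoc']
  rw [← Finset.sum_div]
  congr 1
  simp_rw [Finset.mul_sum]
  rw [Finset.sum_comm]
  refine Finset.sum_congr rfl fun x _ => ?_
  push_cast
  rw [Finset.sum_mul]
  refine Finset.sum_congr rfl fun c _ => ?_
  ring

lemma ep_eq_std (p : ℕ) [NeZero p] (t : ZMod p) : ep p t = ZMod.stdAddChar t := by
  have h1 := e_eq_std p ((t.val : ℕ) : ℤ)
  have h2 : (((t.val : ℕ) : ℤ) : ZMod p) = t := by
    rw [Int.cast_natCast, ZMod.natCast_zmod_val]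
  rw [h2] at h1
  rw [← h1]
  unfold ep e
  congr 1
  push_cast
  ring

section large

variable {h : ℤ[X]} {p : ℕ} [Fact p.Prime] {r : ℕ → ℤ} {w : ℝ} {ν : ZMod p → ℝ}

/-- the weights at a large prime -/
noncomputable def vl (p : ℕ) (ν : ZMod p → ℝ) (r : ℕ → ℤ) (w : ℝ) : ℕ → ℤ → ℝ
  | 0, _ => 1
  | 1, x => (1 - w) * ν (x : ZMod p) + 1 * (w * cls p 1 (r 1) x + (-1) * cls p 0 (r 0) x)
  | (i + 2), x => w ^ (i + 2) * cls p (i + 2) (r (i + 2)) x +
      (-(w ^ (i + 2))) * cls p (i + 1) (r (i + 1)) x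

/-- the transform of `ν` -/
noncomputable def TT (h : ℤ[X]) (p : ℕ) (ν : ZMod p → ℝ) (a : ℤ) (j : ℕ) : ℂ :=
  PS463.mn h (fun x => ν (x : ZMod p)) (p ^ 1) (p ^ j) a

lemma TT_eq (ν : ZMod p → ℝ) (a : ℤ) (j : ℕ) :
    TT h p ν a j = ∑ c : ZMod p, ((ν c / p : ℝ) : ℂ) * GG h p a 1 j ((c.val : ℕ) : ℤ) := by
  have hp : p.Prime := Fact.out
  have hp0 : (p : ℝ) ≠ 0 := by exact_mod_cast hp.ne_zero
  have h1 : (fun x : ℤ => ν (x : ZMod p)) =
      fun x : ℤ => ∑ c : ZMod p, (ν c / p) * cls p 1 ((c.val : ℕ) : ℤ) x := by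
    funext x
    rw [Finset.sum_eq_single (x : ZMod p)]
    · unfold cls
      rw [if_pos, pow_one]
      · field_simp
      · rw [pow_one, ← ZMod.intCast_zmod_eq_zero_iff_dvd]
        push_cast
        rw [ZMod.natCast_zmod_val, sub_self]
    · intro c _ hc
      unfold cls
      rw [if_neg, mul_zero]
      rw [pow_one, ← ZMod.intCast_zmod_eq_zero_iff_dvd]
      push_cast
      rw [ZMod.natCast_zmod_val]
      intro h2
      exact hc (sub_eq_zero.1 h2).symm
    · intro h2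
      exact absurd (Finset.mem_univ _) h2
  unfold TT
  rw [h1, mn_sum]
  refine Finset.sum_congr rfl fun c _ => ?_
  rw [mn_cls h p hp a 1 1 j le_rfl]

lemma GG_one_one (a : ℤ) (c : ℤ) :
    GG h p a 1 1 c = ep p ((a : ZMod p) * (h.map (Int.castRingHom (ZMod p))).eval (c : ZMod p)) := by
  have hp : p.Prime := Fact.out
  have h1 : GG h p a 1 1 c = ph h a (p ^ 1) c := by
    apply mn_const _ (Nat.one_le_pow _ _ hp.pos)
    intro y
    apply (ph_per h a (p ^ 1) (Nat.one_le_pow _ _ hp.pos)).congr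
    push_cast
    exact ⟨y, by ring⟩
  rw [h1, ep_eq_std, eval_intCast_map]
  unfold ph
  rw [pow_one]
  have h2 := e_eq_std p (a * h.eval c)
  push_cast at h2
  rw [h2]
  simp

lemma TT_one (ν : ZMod p → ℝ) (a : ℤ) : TT h p ν a 1 =
    (∑ x : ZMod p, (ν x : ℂ) * ep p ((a : ZMod p) * (h.map (Int.castRingHom (ZMod p))).eval x)) / p := by
  rw [TT_eq, Finset.sum_div]
  refine Finset.sum_congr rfl fun c _ => ?_
  rw [GG_one_one, Int.cast_natCast, ZMod.natCast_zmod_val]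
  push_cast
  ring

lemma TT_high (hνd : ∀ x : ZMod p, (derivative (h.map (Int.castRingHom (ZMod p)))).eval x = 0 → ν x = 0)
    (a : ℤ) (ha : IsCoprime a (p : ℤ)) (j : ℕ) (hj : 2 ≤ j) : TT h p ν a j = 0 := by
  have hp : p.Prime := Fact.out
  rw [TT_eq]
  refine Finset.sum_eq_zero fun c _ => ?_
  by_cases hc : ν c = 0
  · rw [hc, zero_div, Complex.ofReal_zero, zero_mul]
  · have h1 : GG h p a 1 j ((c.val : ℕ) : ℤ) = 0 := by
      apply fib_zero h p hp _ 1 0 j (by omega) (by omega) _ a ha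
      intro h2
      apply hc
      apply hνd
      rw [zero_add, pow_one, ← ZMod.intCast_zmod_eq_zero_iff_dvd] at h2
      rw [Polynomial.derivative_map]
      have h3 : (c : ZMod p) = (((c.val : ℕ) : ℤ) : ZMod p) := by
        rw [Int.cast_natCast, ZMod.natCast_zmod_val]
      rw [h3, eval_intCast_map]
      simpa using h2
    rw [h1, mul_zero]

lemma TT_zero (ν : ZMod p → ℝ) (hs : ∑ x, ν x = p) (a : ℤ) : TT h p ν a 0 = 1 := by
  have hp : p.Prime := Fact.out
  have hp0 : (p : ℂ) ≠ 0 := by exact_mod_cast hp.ne_zero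
  rw [TT_eq]
  have h1 : ∀ c : ZMod p, GG h p a 1 0 ((c.val : ℕ) : ℤ) = 1 := by
    intro c
    apply mn_const _ (by simp)
    intro y
    apply ph_one h a _ (by simp)
    simp
  simp only [h1, mul_one]
  have h2 : ∑ c : ZMod p, ((ν c / p : ℝ) : ℂ) = ((∑ c : ZMod p, ν c : ℝ) : ℂ) / p := by
    push_cast
    rw [Finset.sum_div]
  rw [h2, hs]
  push_cast
  field_simp

lemma mn_vl_zero (j : ℕ) (a : ℤ) :
    PS463.mn h (vl p ν r w 0) (p ^ 0) (p ^ j) a = GG h p a 0 j (r 0) := by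
  have hp : p.Prime := Fact.out
  rw [← mn_cls h p hp a 0 0 j le_rfl (r 0)]
  congr 1
  funext x
  rw [cls_zero]
  rfl

lemma mn_vl_one (j : ℕ) (a : ℤ) :
    PS463.mn h (vl p ν r w 1) (p ^ 1) (p ^ j) a =
      ((1 - w : ℝ) : ℂ) * TT h p ν a j + (w : ℂ) * GG h p a 1 j (r 1) - GG h p a 0 j (r 0) := by
  have hp : p.Prime := Fact.out
  have h1 : vl p ν r w 1 = fun x : ℤ => (1 - w) * ν (x : ZMod p) +
    1 * (w * cls p 1 (r 1) x + (-1) * cls p 0 (r 0) x) := rfl
  rw [h1, mn_lin h (fun x : ℤ => ν (x : ZMod p)) (fun x => w * cls p 1 (r 1) x + (-1) * cls p 0 (r 0) x),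
    mn_lin, mn_cls h p hp a 1 1 j le_rfl, mn_cls h p hp a 0 1 j (by omega)]
  unfold TT
  push_cast
  ring

lemma mn_vl_succ (i j : ℕ) (a : ℤ) :
    PS463.mn h (vl p ν r w (i + 2)) (p ^ (i + 2)) (p ^ j) a =
      ((w ^ (i + 2) : ℝ) : ℂ) * (GG h p a (i + 2) j (r (i + 2)) - GG h p a (i + 1) j (r (i + 1))) := by
  have hp : p.Prime := Fact.out
  have h1 : vl p ν r w (i + 2) = fun x : ℤ => w ^ (i + 2) * cls p (i + 2) (r (i + 2)) x +
      (-(w ^ (i + 2))) * cls p (i + 1) (r (i + 1)) x := rfl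
  rw [h1, mn_lin, mn_cls h p hp a (i + 2) (i + 2) j le_rfl,
    mn_cls h p hp a (i + 1) (i + 2) j (by omega)]
  push_cast
  ring

/-- the terms with `i ≥ 2` -/
lemma mn_vl_two (hR : RootAt h p 0 r) (a : ℤ) (ha : IsCoprime a (p : ℤ)) (i j : ℕ)
    (hij : i + 2 ≤ j) :
    PS463.mn h (vl p ν r w (i + 2)) (p ^ (i + 2)) (p ^ j) a =
      if i + 2 = j then ((w ^ j : ℝ) : ℂ) else 0 := by
  have hp : p.Prime := Fact.out
  rw [mn_vl_succ, GG_high hR hp a ha (i + 1) j (by omega) (by omega), sub_zero]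
  split_ifs with h1
  · rw [GG_mid hR hp a (i + 2) j (by omega) (by omega), mul_one, h1]
  · rw [GG_high hR hp a ha (i + 2) j (by omega) (by omega), mul_zero]

lemma vl_partial_one (hR : RootAt h p 0 r) (a : ℤ) :
    ∑ i ∈ Finset.range (1 + 1), PS463.mn h (vl p ν r w i) (p ^ i) (p ^ 1) a =
      ((1 - w : ℝ) : ℂ) * TT h p ν a 1 + (w : ℂ) := by
  have hp : p.Prime := Fact.out
  rw [Finset.sum_range_succ, Finset.sum_range_one, mn_vl_zero, mn_vl_one,
    GG_mid hR hp a 1 1 (by omega) (by omega)]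
  ring

lemma vl_partial (hR : RootAt h p 0 r)
    (hνd : ∀ x : ZMod p, (derivative (h.map (Int.castRingHom (ZMod p)))).eval x = 0 → ν x = 0)
    (a : ℤ) (ha : IsCoprime a (p : ℤ)) (j : ℕ) (hj : 2 ≤ j) :
    ∑ i ∈ Finset.range (j + 1), PS463.mn h (vl p ν r w i) (p ^ i) (p ^ j) a = ((w ^ j : ℝ) : ℂ) := by
  have hp : p.Prime := Fact.out
  obtain ⟨m, rfl⟩ : ∃ m, j = m + 2 := ⟨j - 2, by omega⟩
  have h0 : ∑ i ∈ Finset.range (m + 2 + 1), PS463.mn h (vl p ν r w i) (p ^ i) (p ^ (m + 2)) a =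
      (∑ i ∈ Finset.range (m + 1), PS463.mn h (vl p ν r w (i + 2)) (p ^ (i + 2)) (p ^ (m + 2)) a) +
      PS463.mn h (vl p ν r w 1) (p ^ 1) (p ^ (m + 2)) a +
      PS463.mn h (vl p ν r w 0) (p ^ 0) (p ^ (m + 2)) a := by
    rw [show m + 2 + 1 = (m + 1) + 1 + 1 by ring, Finset.sum_range_succ', Finset.sum_range_succ']
  have h1 : ∑ i ∈ Finset.range (m + 1), PS463.mn h (vl p ν r w (i + 2)) (p ^ (i + 2)) (p ^ (m + 2)) a =
      ((w ^ (m + 2) : ℝ) : ℂ) := by
    rw [Finset.sum_congr rfl fun i hi => mn_vl_two hR a ha i (m + 2)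
      (by rw [Finset.mem_range] at hi; omega)]
    rw [Finset.sum_eq_single_of_mem m (by simp)]
    · rw [if_pos rfl]
    · intro i _ him
      rw [if_neg (by omega)]
  rw [h0, h1, mn_vl_one, mn_vl_zero, TT_high hνd a ha (m + 2) (by omega),
    GG_high hR hp a ha 1 (m + 2) (by omega) (by omega)]
  ring

/-- the complete sum -/
lemma GG_zero_le (k : ℕ) (hk : h.natDegree ≤ k) (hkp : k < p)
    (hnc : NC h p) (a : ℤ) (ha : IsCoprime a (p : ℤ)) (j : ℕ) (hj : 1 ≤ j) (c : ℤ) :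
    ‖GG h p a 0 j c‖ ≤ k * Real.sqrt p / p := by
  have hp : p.Prime := Fact.out
  have hp1 : (1 : ℝ) ≤ p := by exact_mod_cast hp.one_lt.le
  have hp0 : (0 : ℝ) < p := by linarith
  have hpj : 1 ≤ p ^ j := Nat.one_le_pow _ _ hp.pos
  have : NeZero (p ^ j) := ⟨by omega⟩
  have ha' : ¬ (p : ℤ) ∣ a := by
    intro h1
    have h2 := ha.symm.isUnit_of_dvd' dvd_rfl h1
    rw [Int.isUnit_iff] at h2
    have := hp.two_le
    omega
  have h1 : GG h p a 0 j c = ecs h a (p ^ j) / (p ^ j : ℕ) := by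
    unfold GG PS748.mn
    congr 1
    have h2 := sum_affine (ph_per h a (p ^ j) hpj) c 1 isCoprime_one_left
    simp only [pow_zero]
    rw [h2, ← sum_range_eq_ecs]
    rfl
  rw [h1, norm_div, Complex.norm_natCast]
  have hsq : (1 : ℝ) ≤ Real.sqrt p := by
    rw [Real.one_le_sqrt]; exact hp1
  rcases Nat.lt_or_ge 1 j with hj2 | hj1
  · have h3 := ecs_prime_pow h k p j hj2 hk hkp hnc a ha'
    rw [div_le_div_iff₀ (by exact_mod_cast hpj) hp0]
    have h4 : (p : ℝ) ^ j = (p : ℝ) ^ (j - 1) * p := by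
      rw [← pow_succ]; congr 1; omega
    push_cast
    rw [h4]
    calc ‖ecs h a (p ^ j)‖ * p ≤ (k * (p : ℝ) ^ (j - 1)) * p :=
          mul_le_mul_of_nonneg_right h3 hp0.le
      _ = k * 1 * ((p : ℝ) ^ (j - 1) * p) := by ring
      _ ≤ k * Real.sqrt p * ((p : ℝ) ^ (j - 1) * p) := by
          apply mul_le_mul_of_nonneg_right _ (by positivity)
          exact mul_le_mul_of_nonneg_left hsq (by positivity)
  · have hj' : j = 1 := by omega
    subst hj'
    have h5 : ∀ (q : ℕ) (_ : NeZero q), q = p → ‖ecs h a q‖ / ((q : ℕ) : ℝ) ≤ k * Real.sqrt p / p := by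
      rintro q _ rfl
      apply div_le_div_of_nonneg_right _ hp0.le
      exact ecs_prime h k q hk hkp hnc a ha'
    exact h5 (p ^ 1) _ (pow_one p)

theorem locP_large (hR : RootAt h p 0 r) (k : ℕ) (hk : h.natDegree ≤ k) (hkp : k < p)
    (hnc : NC h p) (K : ℝ) (hK : 0 ≤ K) (hKp : K + 1 ≤ p)
    (hν0 : ∀ x, 0 ≤ ν x) (hνK : ∀ x, ν x ≤ K) (hs : ∑ x, ν x = p)
    (hνd : ∀ x : ZMod p, (derivative (h.map (Int.castRingHom (ZMod p)))).eval x = 0 → ν x = 0)
    (hνim : ∀ a : ZMod p,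
      (∑ x, (ν x : ℂ) * ep p (a * (h.map (Int.castRingHom (ZMod p))).eval x)).im = 0)
    (hνb : ∀ a : ZMod p, a ≠ 0 →
      ‖∑ x, (ν x : ℂ) * ep p (a * (h.map (Int.castRingHom (ZMod p))).eval x)‖ ≤
        K * (p : ℝ) ^ (3 / 4 : ℝ))
    {c1 : ℝ} (hw0 : 0 ≤ w) (hw1 : w ≤ 1)
    (hw : (p : ℝ) ^ c1 * w ≤ 1) (hKw : K * (p : ℝ) ^ (3 / 4 : ℝ) / p ≤ w)
    (hnum : k * Real.sqrt p / p + (p : ℝ) ^ c1 * (K * (p : ℝ) ^ (3 / 4 : ℝ) / p + w +
      k * Real.sqrt p / p) ≤ 1) :
    LocP h p (vl p ν r w) 2 1 c1 := by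
  have hp : p.Prime := Fact.out
  have hp1 : (1 : ℝ) ≤ p := by exact_mod_cast hp.one_lt.le
  have hp2 : (2 : ℝ) ≤ p := by exact_mod_cast hp.two_le
  have hp0 : (0 : ℝ) < p := by linarith
  set κ := K * (p : ℝ) ^ (3 / 4 : ℝ) / p with hκ
  set M := k * Real.sqrt p / p with hM
  have hκ0 : 0 ≤ κ := by rw [hκ]; positivity
  have hM0 : 0 ≤ M := by rw [hM]; positivity
  have hTim : ∀ a : ℤ, (TT h p ν a 1).im = 0 := by
    intro a
    rw [TT_one, Complex.div_natCast_im, hνim, zero_div]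
  have hTb : ∀ a : ℤ, IsCoprime a (p : ℤ) → ‖TT h p ν a 1‖ ≤ κ := by
    intro a ha
    rw [TT_one, norm_div, Complex.norm_natCast, hκ]
    apply div_le_div_of_nonneg_right _ hp0.le
    apply hνb
    intro h0
    rw [ZMod.intCast_zmod_eq_zero_iff_dvd] at h0
    have h2 := ha.symm.isUnit_of_dvd' dvd_rfl h0
    rw [Int.isUnit_iff] at h2
    have := hp.two_le
    omega
  refine ⟨fun x => rfl, ?_, ?_, ?_, ?_, ?_, ?_⟩
  · intro i x
    match i with
    | 0 => rfl
    | 1 =>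
      have h1 : ∀ x : ℤ, vl p ν r w 1 x = (1 - w) * ν (x : ZMod p) +
        1 * (w * cls p 1 (r 1) x + (-1) * cls p 0 (r 0) x) := fun x => rfl
      rw [h1, h1, cls_per p 1 1 le_rfl, cls_per p 0 1 (by omega)]
      congr 3
      push_cast
      simp
    | (i + 2) =>
      have h1 : ∀ x : ℤ, vl p ν r w (i + 2) x = w ^ (i + 2) * cls p (i + 2) (r (i + 2)) x +
        (-(w ^ (i + 2))) * cls p (i + 1) (r (i + 1)) x := fun x => rfl
      rw [h1, h1, cls_per p (i + 2) (i + 2) le_rfl, cls_per p (i + 1) (i + 2) (by omega)]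
  · intro i x
    match i with
    | 0 =>
      have h1 : vl p ν r w 0 x = 1 := rfl
      rw [h1]
      simp
    | 1 =>
      have h1 : vl p ν r w 1 x = (1 - w) * ν (x : ZMod p) +
        1 * (w * cls p 1 (r 1) x + (-1) * cls p 0 (r 0) x) := rfl
      rw [h1, cls_zero]
      have h2 := hν0 (x : ZMod p)
      have h3 := hνK (x : ZMod p)
      have h4 := cls_nonneg p 1 (r 1) x
      have h5 := cls_le p 1 (r 1) x
      rw [pow_one] at h5
      have h6 : (1 - w) * ν (x : ZMod p) ≤ K := by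
        calc _ ≤ 1 * K := mul_le_mul (by linarith) h3 h2 (by norm_num)
          _ = K := one_mul _
      have h7 : 0 ≤ (1 - w) * ν (x : ZMod p) := mul_nonneg (by linarith) h2
      have h8 : w * cls p 1 (r 1) x ≤ p := by
        calc _ ≤ 1 * (p : ℝ) := mul_le_mul hw1 h5 h4 (by norm_num)
          _ = p := one_mul _
      have h9 : 0 ≤ w * cls p 1 (r 1) x := mul_nonneg hw0 h4
      push_cast
      rw [pow_one, abs_le]
      constructor <;> nlinarith
    | (i + 2) =>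
      have h1 : vl p ν r w (i + 2) x = w ^ (i + 2) * cls p (i + 2) (r (i + 2)) x +
        (-(w ^ (i + 2))) * cls p (i + 1) (r (i + 1)) x := rfl
      rw [h1]
      have h1 := cls_nonneg p (i + 2) (r (i + 2)) x
      have h2 := cls_le p (i + 2) (r (i + 2)) x
      have h3 := cls_nonneg p (i + 1) (r (i + 1)) x
      have h4 := cls_le p (i + 1) (r (i + 1)) x
      have h5 : (p : ℝ) ^ (i + 1) ≤ (p : ℝ) ^ (i + 2) := pow_le_pow_right₀ hp1 (by omega)
      have h6 : w ^ (i + 2) ≤ 1 := pow_le_one₀ hw0 hw1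
      have h7 : 0 ≤ w ^ (i + 2) := by positivity
      have h8 : (p : ℝ) ^ (i + 2) ≤ (((p ^ (i + 2) : ℕ)) : ℝ) ^ 2 := by
        push_cast
        exact le_self_pow₀ (one_le_pow₀ hp1) (by omega)
      rw [show w ^ (i + 2) * cls p (i + 2) (r (i + 2)) x +
        -w ^ (i + 2) * cls p (i + 1) (r (i + 1)) x =
        w ^ (i + 2) * (cls p (i + 2) (r (i + 2)) x - cls p (i + 1) (r (i + 1)) x) by ring, abs_mul,
        abs_of_nonneg h7]
      have h9 : |cls p (i + 2) (r (i + 2)) x - cls p (i + 1) (r (i + 1)) x| ≤ (p : ℝ) ^ (i + 2) := by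
        rw [abs_le]; constructor <;> linarith
      calc _ ≤ 1 * (p : ℝ) ^ (i + 2) := mul_le_mul h6 h9 (abs_nonneg _) (by norm_num)
        _ ≤ _ := by rw [one_mul]; exact h8
  · intro i j hji a _
    match i with
    | 0 => omega
    | 1 =>
      have hj0 : j = 0 := by omega
      subst hj0
      rw [mn_vl_one, TT_zero ν hs, GG_low hR hp a 1 0 (by omega), GG_low hR hp a 0 0 (by omega)]
      push_cast
      ring
    | (i + 2) =>
      rw [mn_vl_succ, GG_low hR hp a (i + 2) j (by omega), GG_low hR hp a (i + 1) j (by omega),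
        sub_self, mul_zero]
  · intro j hj a ha
    rcases Nat.lt_or_ge 1 j with hj2 | hj1
    · rw [vl_partial hR hνd a ha j hj2]
      exact Complex.ofReal_im _
    · have hj' : j = 1 := by omega
      subst hj'
      rw [vl_partial_one hR, Complex.add_im, Complex.ofReal_im, Complex.im_ofReal_mul, hTim, mul_zero,
        add_zero]
  · intro j hj a ha
    rcases Nat.lt_or_ge 1 j with hj2 | hj1
    · rw [vl_partial hR hνd a ha j hj2, Complex.ofReal_re]
      positivity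
    · have hj' : j = 1 := by omega
      subst hj'
      rw [vl_partial_one hR, Complex.add_re, Complex.ofReal_re, Complex.re_ofReal_mul]
      have h1 := (abs_le.1 ((Complex.abs_re_le_norm _).trans (hTb a ha))).1
      nlinarith
  · intro j hj a ha
    rcases Nat.lt_or_ge 1 j with hj2 | hj1
    · obtain ⟨m, rfl⟩ : ∃ m, j = m + 2 := ⟨j - 2, by omega⟩
      rw [show m + 2 + 1 = (m + 1) + 1 + 1 by ring, Finset.sum_range_succ', Finset.sum_range_succ']
      have h1 : ∑ i ∈ Finset.range (m + 1), ((p ^ (i + 1 + 1) : ℕ) : ℝ) ^ c1 *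
          ‖PS463.mn h (vl p ν r w (i + 1 + 1)) (p ^ (i + 1 + 1)) (p ^ (m + 2)) a‖ ≤ (p : ℝ) ^ c1 * w := by
        rw [Finset.sum_eq_single_of_mem m (by simp)]
        · rw [mn_vl_two hR a ha m (m + 2) le_rfl, if_pos rfl, Complex.norm_real,
            Real.norm_of_nonneg (by positivity)]
          have h2 : ((p ^ (m + 1 + 1) : ℕ) : ℝ) ^ c1 = ((p : ℝ) ^ c1) ^ (m + 2) := by
            push_cast
            rw [← Real.rpow_natCast, ← Real.rpow_natCast, ← Real.rpow_mul hp0.le,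
              ← Real.rpow_mul hp0.le, mul_comm]
          rw [h2, ← mul_pow]
          have h3 : (0 : ℝ) ≤ (p : ℝ) ^ c1 * w := by positivity
          calc ((p : ℝ) ^ c1 * w) ^ (m + 2) ≤ ((p : ℝ) ^ c1 * w) ^ 1 :=
                pow_le_pow_of_le_one h3 hw (by omega)
            _ = _ := pow_one _
        · intro i hi him
          rw [mn_vl_two hR a ha i (m + 2) (by rw [Finset.mem_range] at hi; omega),
            if_neg (by omega), norm_zero, mul_zero]
      have h2 : ((p ^ (0 + 1) : ℕ) : ℝ) ^ c1 *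
          ‖PS463.mn h (vl p ν r w (0 + 1)) (p ^ (0 + 1)) (p ^ (m + 2)) a‖ ≤ (p : ℝ) ^ c1 * M := by
        rw [zero_add, pow_one]
        apply mul_le_mul_of_nonneg_left _ (by positivity)
        have h3 := mn_vl_one (h := h) (ν := ν) (r := r) (w := w) (m + 2) a
        rw [pow_one] at h3
        rw [h3, TT_high hνd a ha (m + 2) (by omega),
          GG_high hR hp a ha 1 (m + 2) (by omega) (by omega), mul_zero, mul_zero, zero_add,
          zero_sub, norm_neg]
        exact GG_zero_le k hk hkp hnc a ha (m + 2) (by omega) _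
      have h3 : ((p ^ 0 : ℕ) : ℝ) ^ c1 *
          ‖PS463.mn h (vl p ν r w 0) (p ^ 0) (p ^ (m + 2)) a‖ ≤ M := by
        rw [mn_vl_zero]
        simp only [pow_zero, Nat.cast_one, Real.one_rpow, one_mul]
        exact GG_zero_le k hk hkp hnc a ha (m + 2) (by omega) _
      have h4 : 0 ≤ (p : ℝ) ^ c1 * κ := by positivity
      calc _ ≤ (p : ℝ) ^ c1 * w + (p : ℝ) ^ c1 * M + M := add_le_add (add_le_add h1 h2) h3
        _ ≤ 1 := by nlinarith
    · have hj' : j = 1 := by omega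
      subst hj'
      rw [Finset.sum_range_succ, Finset.sum_range_one]
      have h3 : ((p ^ 0 : ℕ) : ℝ) ^ c1 *
          ‖PS463.mn h (vl p ν r w 0) (p ^ 0) (p ^ 1) a‖ ≤ M := by
        rw [mn_vl_zero]
        simp only [pow_zero, Nat.cast_one, Real.one_rpow, one_mul]
        exact GG_zero_le k hk hkp hnc a ha 1 (by omega) _
      have h2 : ((p ^ 1 : ℕ) : ℝ) ^ c1 *
          ‖PS463.mn h (vl p ν r w 1) (p ^ 1) (p ^ 1) a‖ ≤ (p : ℝ) ^ c1 * (κ + w + M) := by
        rw [mn_vl_one, GG_mid hR hp a 1 1 (by omega) (by omega), mul_one]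
        rw [show ((p ^ 1 : ℕ) : ℝ) = p by push_cast; exact pow_one _]
        apply mul_le_mul_of_nonneg_left _ (by positivity)
        refine (norm_sub_le _ _).trans ?_
        refine add_le_add ((norm_add_le _ _).trans (add_le_add ?_ ?_))
          (GG_zero_le k hk hkp hnc a ha 1 (by omega) _)
        · rw [norm_mul, Complex.norm_real, Real.norm_of_nonneg (by linarith)]
          calc (1 - w) * ‖TT h p ν a 1‖ ≤ 1 * κ :=
                mul_le_mul (by linarith) (hTb a ha) (norm_nonneg _) (by norm_num)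
            _ = κ := one_mul _
        · rw [Complex.norm_real, Real.norm_of_nonneg hw0]
      linarith

end large

end Vale.Agent.P042.WA.W5
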