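import Vale.Agent.P042.WA.W5.Large
import Vale.Agent.P042.PS463.Loc
import Mathlib.FieldTheory.Perfect
set_option autoImplicit false

/-! Block W5: power saving for squarefree intersective polynomials from even weights. -/

namespace Vale.Agent.P042.WA.W5

open Polynomial Finset

/-- assembling the local data -/
theorem exists_loc (h : ℤ[X]) (p0 : ℕ) (C c1 : ℝ) (hC : 1 ≤ C)
    (hloc : ∀ p : ℕ, p.Prime → ∃ v : ℕ → ℤ → ℝ, LocP h p v 2 (if p0 ≤ p then 1 else C) c1) :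
    ∃ v : ℕ → ℕ → ℤ → ℝ, PS463.Loc h v 2 p0 C c1 := by
  classical
  choose f hf using hloc
  refine ⟨fun p => if hp : p.Prime then f p hp else fun _ _ => 1, ?_, ?_, ?_, ?_, ?_, ?_, ?_, ?_⟩
  · intro p x
    split_ifs with hp
    · exact (hf p hp).one x
    · rfl
  · intro p i hp x
    simp only [dif_pos hp]
    exact (hf p hp).per i x
  · intro p i hp x
    simp only [dif_pos hp]
    exact (hf p hp).bd i x
  · intro p i j hp hji a ha
    simp only [dif_pos hp]
    exact (hf p hp).zero i j hji a ha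
  · intro p j hp hj a ha
    simp only [dif_pos hp]
    exact (hf p hp).im j hj a ha
  · intro p j hp hj a ha
    simp only [dif_pos hp]
    exact (hf p hp).ge j hj a ha
  · intro p j hp hj a ha
    simp only [dif_pos hp]
    refine ((hf p hp).sum j hj a ha).trans ?_
    split_ifs
    · exact hC
    · exact le_rfl
  · intro p j hp hpp hj a ha
    simp only [dif_pos hp]
    refine ((hf p hp).sum j hj a ha).trans ?_
    rw [if_pos hpp]

/-- the numerical conditions for large primes -/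
lemma numer (K k : ℝ) (hK : 0 ≤ K) (hk : 0 ≤ k) (p : ℝ) (hp1 : 1 ≤ p)
    (hL : (K + 1 + 2 * k) ^ 16 ≤ p) :
    K * p ^ (3 / 4 : ℝ) / p ≤ p ^ (-(1 / 8) : ℝ) ∧
    k * Real.sqrt p / p + p ^ (1 / 16 : ℝ) * (K * p ^ (3 / 4 : ℝ) / p + p ^ (-(1 / 8) : ℝ) +
      k * Real.sqrt p / p) ≤ 1 := by
  have hp0 : 0 < p := by linarith
  set x := p ^ (1 / 16 : ℝ) with hx
  have hx0 : 0 < x := Real.rpow_pos_of_pos hp0 _
  have hx1 : 1 ≤ x := Real.one_le_rpow hp1 (by norm_num)
  have hpx : p = x ^ 16 := by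
    rw [hx, ← Real.rpow_natCast, ← Real.rpow_mul hp0.le]
    norm_num
  have hxL : K + 1 + 2 * k ≤ x := by
    rw [hpx] at hL
    exact le_of_pow_le_pow_left₀ (by norm_num) hx0.le hL
  have h1 : p ^ (3 / 4 : ℝ) = x ^ 12 := by
    rw [hx, ← Real.rpow_natCast, ← Real.rpow_mul hp0.le]
    norm_num
  have h2 : p ^ (-(1 / 8) : ℝ) = (x ^ 2)⁻¹ := by
    rw [hx, ← Real.rpow_natCast, ← Real.rpow_mul hp0.le, ← Real.rpow_neg hp0.le]
    norm_num
  have h3 : Real.sqrt p = x ^ 8 := by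
    rw [hpx, show x ^ 16 = (x ^ 8) ^ 2 by ring, Real.sqrt_sq (by positivity)]
  rw [h1, h2, h3]
  have e1 : K * x ^ 12 / p = K * (x ^ 4)⁻¹ := by rw [hpx]; field_simp
  have e2 : k * x ^ 8 / p = k * (x ^ 8)⁻¹ := by rw [hpx]; field_simp
  rw [e1, e2]
  have i2 : (x ^ 2)⁻¹ ≤ 1 := inv_le_one_of_one_le₀ (one_le_pow₀ hx1)
  have hKx : K ≤ x ^ 2 := by nlinarith
  constructor
  · rw [show (x ^ 4)⁻¹ = (x ^ 2)⁻¹ * (x ^ 2)⁻¹ by rw [← mul_inv]; ring_nf, ← mul_assoc]
    apply mul_le_of_le_one_left (by positivity)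
    rw [← div_eq_mul_inv, div_le_one (by positivity)]
    exact hKx
  · have j1 : (x ^ 8)⁻¹ ≤ x⁻¹ := inv_anti₀ hx0 (le_self_pow₀ hx1 (by norm_num))
    have j2 : x * (x ^ 4)⁻¹ ≤ x⁻¹ := by
      have : x * (x ^ 4)⁻¹ = (x ^ 3)⁻¹ := by field_simp
      rw [this]
      exact inv_anti₀ hx0 (le_self_pow₀ hx1 (by norm_num))
    have j3 : x * (x ^ 2)⁻¹ = x⁻¹ := by field_simp
    have j4 : x * (x ^ 8)⁻¹ ≤ x⁻¹ := by
      have : x * (x ^ 8)⁻¹ = (x ^ 7)⁻¹ := by field_simp
      rw [this]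
      exact inv_anti₀ hx0 (le_self_pow₀ hx1 (by norm_num))
    have j5 : x⁻¹ * (K + 1 + 2 * k) ≤ 1 := by
      rw [inv_mul_le_iff₀ hx0, mul_one]; exact hxL
    calc k * (x ^ 8)⁻¹ + x * (K * (x ^ 4)⁻¹ + (x ^ 2)⁻¹ + k * (x ^ 8)⁻¹)
        = k * (x ^ 8)⁻¹ + K * (x * (x ^ 4)⁻¹) + x * (x ^ 2)⁻¹ + k * (x * (x ^ 8)⁻¹) := by ring
      _ ≤ k * x⁻¹ + K * x⁻¹ + x⁻¹ + k * x⁻¹ := by
          rw [j3]
          gcongr
      _ = x⁻¹ * (K + 1 + 2 * k) := by ring
      _ ≤ 1 := j5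

/-- Theorem A from the even weights. -/
theorem power_saving_of_evenWeight (hEW : EvenWeight) (h : ℤ[X]) (hk : 2 ≤ h.natDegree)
    (hpos : 0 < h.leadingCoeff) (hint : Intersective h)
    (hsq : Squarefree (h.map (Int.castRingHom ℚ))) :
    ∃ c C : ℝ, 0 < c ∧ ∀ N : ℕ, 1 ≤ N → (rMax h N : ℝ) ≤ C * (N : ℝ) ^ (1 - c) := by
  have hsep : (h.map (Int.castRingHom ℚ)).Separable :=
    PerfectField.separable_iff_squarefree.2 hsq
  have hcop : IsCoprime (h.map (Int.castRingHom ℚ)) ((derivative h).map (Int.castRingHom ℚ)) := by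
    rw [← Polynomial.derivative_map]
    exact hsep
  obtain ⟨c, hc0, hroot⟩ := exists_rootAt h (by omega) hint hcop
  obtain ⟨K, P0, hK, hEW⟩ := hEW h.natDegree hk
  set k := h.natDegree with hkdef
  obtain ⟨L, hL⟩ := exists_nat_ge ((K + 1 + 2 * (k : ℝ)) ^ 16)
  set p0 := P0 + (k + 1) + (c.natAbs + 1) + (h.leadingCoeff.natAbs + 1) + L with hp0
  set C : ℝ := (2 * (c.natAbs : ℝ) + 4) * ((c.natAbs : ℝ) * p0) with hC
  have hca : 1 ≤ c.natAbs := Nat.one_le_iff_ne_zero.2 (Int.natAbs_ne_zero.2 hc0)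
  have hcaR : (1 : ℝ) ≤ c.natAbs := by exact_mod_cast hca
  have hp0R : (1 : ℝ) ≤ p0 := by
    have : 1 ≤ p0 := by omega
    exact_mod_cast this
  have hC1 : 1 ≤ C := by
    have h1 : (1 : ℝ) ≤ (c.natAbs : ℝ) * p0 := by nlinarith
    rw [hC]
    nlinarith
  have hloc : ∀ p : ℕ, p.Prime →
      ∃ v : ℕ → ℤ → ℝ, LocP h p v 2 (if p0 ≤ p then 1 else C) (1 / 16) := by
    intro p hp
    have : Fact p.Prime := ⟨hp⟩
    obtain ⟨d, r, hR, hd⟩ := hroot p hp
    have hp1 : (1 : ℝ) ≤ p := by exact_mod_cast hp.one_lt.le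
    have hpR : (0 : ℝ) < p := by linarith
    have hw0 : 0 ≤ (p : ℝ) ^ (-(1 / 8) : ℝ) := by positivity
    have hw1 : (p : ℝ) ^ (-(1 / 8) : ℝ) ≤ 1 :=
      Real.rpow_le_one_of_one_le_of_nonpos hp1 (by norm_num)
    have hw : (p : ℝ) ^ (1 / 16 : ℝ) * (p : ℝ) ^ (-(1 / 8) : ℝ) ≤ 1 := by
      rw [← Real.rpow_add hpR]
      exact Real.rpow_le_one_of_one_le_of_nonpos hp1 (by norm_num)
    by_cases hpp : p0 ≤ p
    · rw [if_pos hpp]
      have hd0 : d = 0 := by
        by_contra hne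
        have h1 : (p : ℤ) ∣ c := (dvd_pow_self _ hne).trans hd
        have h2 := Nat.le_of_dvd (by omega) (Int.natCast_dvd.1 h1)
        omega
      subst hd0
      have hlc : (Int.castRingHom (ZMod p)) h.leadingCoeff ≠ 0 := by
        intro h0
        rw [eq_intCast, ZMod.intCast_zmod_eq_zero_iff_dvd] at h0
        have h2 := Nat.le_of_dvd (Nat.pos_of_ne_zero (Int.natAbs_ne_zero.2 (by omega)))
          (Int.natCast_dvd.1 h0)
        omega
      have hdeg : (h.map (Int.castRingHom (ZMod p))).natDegree = k :=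
        natDegree_map_of_leadingCoeff_ne_zero _ hlc
      have hr0 : (h.map (Int.castRingHom (ZMod p))).eval ((r 1 : ℤ) : ZMod p) = 0 := by
        rw [eval_intCast_map]
        have h1 := hR.root 1 (r 1) (by simp)
        rw [pow_one, ← ZMod.intCast_zmod_eq_zero_iff_dvd] at h1
        simpa using h1
      have hr1 : (derivative (h.map (Int.castRingHom (ZMod p)))).eval ((r 1 : ℤ) : ZMod p) ≠ 0 := by
        rw [Polynomial.derivative_map, eval_intCast_map]
        intro h0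
        apply hR.der 1 (r 1) (by omega) (by simp)
        rw [zero_add, pow_one, ← ZMod.intCast_zmod_eq_zero_iff_dvd]
        simpa using h0
      obtain ⟨ν, hν0, hνK, hνs, hνd, hνim, hνb⟩ := hEW p (by omega)
        (h.map (Int.castRingHom (ZMod p))) _ hdeg hr0 hr1
      have hLp : (K + 1 + 2 * (k : ℝ)) ^ 16 ≤ p := by
        refine hL.trans ?_
        have : L ≤ p := by omega
        exact_mod_cast this
      obtain ⟨n1, n2⟩ := numer K k hK (by positivity) p hp1 hLp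
      have hKp : K + 1 ≤ p := by
        refine le_trans ?_ hLp
        have h1 : (1 : ℝ) ≤ K + 1 + 2 * (k : ℝ) := by
          have : (0 : ℝ) ≤ k := by positivity
          linarith
        refine le_trans ?_ (le_self_pow₀ h1 (by norm_num))
        have : (0 : ℝ) ≤ k := by positivity
        linarith
      refine ⟨vl p ν r ((p : ℝ) ^ (-(1 / 8) : ℝ)), ?_⟩
      exact locP_large hR k le_rfl (by omega) (by unfold NC; omega) K hK hKp hν0 hνK hνs hνd
        hνim hνb hw0 hw1 hw n1 n2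
    · rw [if_neg hpp]
      refine ⟨vs p r (d + 1) ((p : ℝ) ^ (-(1 / 8) : ℝ)), ?_⟩
      have h1 := locP_small hR hp (c1 := 1 / 16) (by norm_num) hw0 hw1 hw 2 (by norm_num)
      refine ⟨h1.one, h1.per, h1.bd, h1.zero, h1.im, h1.ge, fun j hj a ha =>
        (h1.sum j hj a ha).trans ?_⟩
      have h2 : p ^ d ≤ c.natAbs := Nat.le_of_dvd (by omega) (by
        have := Int.natAbs_dvd_natAbs.2 hd
        rwa [Int.natAbs_pow, Int.natAbs_natCast] at this)
      have h3 : d ≤ c.natAbs := (Nat.lt_pow_self hp.one_lt).le.trans h2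
      have h4 : (p : ℝ) ^ (d + 1) ≤ (c.natAbs : ℝ) * p0 := by
        rw [pow_succ]
        have h5 : (p : ℝ) ^ d ≤ c.natAbs := by exact_mod_cast h2
        have h6 : (p : ℝ) ≤ p0 := by
          have : p ≤ p0 := by omega
          exact_mod_cast this
        exact mul_le_mul h5 h6 hpR.le (by positivity)
      have h5 : (d : ℝ) ≤ c.natAbs := by exact_mod_cast h3
      rw [hC]
      apply mul_le_mul (by linarith) h4 (by positivity) (by positivity)
  obtain ⟨v, hv⟩ := exists_loc h p0 C (1 / 16) hC1 hloc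
  exact PS463.power_saving_of_loc hk hpos hv hC1 (by norm_num)

end Vale.Agent.P042.WA.W5
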