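import Vale.Agent.P042.WA.W5.Cls
set_option autoImplicit false

/-! Block W5: local weights at one prime, point masses. -/

namespace Vale.Agent.P042.WA.W5

open Polynomial Finset
open Vale.Agent.P042.PS748 (Per class_mean sum_affine mn_dvd)

/-- local data at one prime -/
structure LocP (h : ℤ[X]) (p : ℕ) (v : ℕ → ℤ → ℝ) (B : ℕ) (C c1 : ℝ) : Prop where
  one : ∀ x : ℤ, v 0 x = 1
  per : ∀ (i : ℕ) (x : ℤ), v i (x + (p ^ i : ℕ)) = v i x
  bd : ∀ (i : ℕ) (x : ℤ), |v i x| ≤ (((p ^ i : ℕ) : ℝ)) ^ B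
  zero : ∀ i j : ℕ, j < i → ∀ a : ℤ, (j = 0 ∨ IsCoprime a (p : ℤ)) →
    PS463.mn h (v i) (p ^ i) (p ^ j) a = 0
  im : ∀ j : ℕ, 1 ≤ j → ∀ a : ℤ, IsCoprime a (p : ℤ) →
    (∑ i ∈ Finset.range (j + 1), PS463.mn h (v i) (p ^ i) (p ^ j) a).im = 0
  ge : ∀ j : ℕ, 1 ≤ j → ∀ a : ℤ, IsCoprime a (p : ℤ) →
    0 ≤ (∑ i ∈ Finset.range (j + 1), PS463.mn h (v i) (p ^ i) (p ^ j) a).re
  sum : ∀ j : ℕ, 1 ≤ j → ∀ a : ℤ, IsCoprime a (p : ℤ) →
    ∑ i ∈ Finset.range (j + 1), ((p ^ i : ℕ) : ℝ) ^ c1 *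
      ‖PS463.mn h (v i) (p ^ i) (p ^ j) a‖ ≤ C

section small

variable {h : ℤ[X]} {p d : ℕ} {r : ℕ → ℤ} {w : ℝ}

/-- the weights at a small prime -/
noncomputable def vs (p : ℕ) (r : ℕ → ℤ) (i0 : ℕ) (w : ℝ) : ℕ → ℤ → ℝ
  | 0, _ => 1
  | (i + 1), x => w ^ (i + 1 - i0) * cls p (i + 1) (r (i + 1)) x +
      (-(w ^ (i + 1 - i0))) * cls p i (r i) x

lemma vs_succ (p : ℕ) (r : ℕ → ℤ) (i0 : ℕ) (w : ℝ) (i : ℕ) (x : ℤ) :
    vs p r i0 w (i + 1) x = w ^ (i + 1 - i0) * cls p (i + 1) (r (i + 1)) x +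
      (-(w ^ (i + 1 - i0))) * cls p i (r i) x := rfl

lemma mn_vs_zero (hp : p.Prime) (i0 j : ℕ) (a : ℤ) :
    PS463.mn h (vs p r i0 w 0) (p ^ 0) (p ^ j) a = GG h p a 0 j (r 0) := by
  rw [← mn_cls h p hp a 0 0 j le_rfl (r 0)]
  congr 1
  funext x
  rw [cls_zero]
  rfl

lemma mn_vs_succ (hp : p.Prime) (i0 i j : ℕ) (a : ℤ) :
    PS463.mn h (vs p r i0 w (i + 1)) (p ^ (i + 1)) (p ^ j) a =
      ((w ^ (i + 1 - i0) : ℝ) : ℂ) * (GG h p a (i + 1) j (r (i + 1)) - GG h p a i j (r i)) := by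
  have h1 : vs p r i0 w (i + 1) = fun x => w ^ (i + 1 - i0) * cls p (i + 1) (r (i + 1)) x +
      (-(w ^ (i + 1 - i0))) * cls p i (r i) x := rfl
  rw [h1, mn_lin, mn_cls h p hp a (i + 1) (i + 1) j le_rfl, mn_cls h p hp a i (i + 1) j (by omega)]
  push_cast
  ring

/-- the partial sums -/
lemma vs_partial (hR : RootAt h p d r) (hp : p.Prime) (a : ℤ) (ha : IsCoprime a (p : ℤ)) (j : ℕ)
    (n : ℕ) (hn : n ≤ j) :
    ∑ i ∈ Finset.range (n + 1), PS463.mn h (vs p r (d + 1) w i) (p ^ i) (p ^ j) a =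
      if n ≤ d + 1 then GG h p a n j (r n) else
        if j ≤ n + d then (((w ^ (j - d - (d + 1)) : ℝ)) : ℂ) else 0 := by
  induction n with
  | zero =>
    rw [if_pos (by omega), zero_add, Finset.sum_range_one, mn_vs_zero hp]
  | succ n ih =>
    rw [Finset.sum_range_succ, ih (by omega), mn_vs_succ hp]
    by_cases h1 : n + 1 ≤ d + 1
    · rw [if_pos (by omega), if_pos h1, show n + 1 - (d + 1) = 0 by omega, pow_zero,
        Complex.ofReal_one, one_mul, add_sub_cancel]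
    · rw [if_neg h1]
      by_cases h2 : n ≤ d + 1
      · have hn2 : n = d + 1 := by omega
        rw [if_pos h2]
        by_cases h3 : j ≤ n + d
        · rw [GG_mid hR hp a n j (by omega) h3, GG_mid hR hp a (n + 1) j (by omega) (by omega),
            if_pos (by omega), show j - d - (d + 1) = 0 by omega]
          simp
        · rw [GG_high hR hp a ha n j (by omega) (by omega)]
          by_cases h4 : j ≤ n + 1 + d
          · rw [GG_mid hR hp a (n + 1) j (by omega) (by omega), if_pos h4,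
              show j - d - (d + 1) = n + 1 - (d + 1) by omega]
            ring
          · rw [GG_high hR hp a ha (n + 1) j (by omega) (by omega), if_neg h4]
            ring
      · rw [if_neg h2]
        by_cases h3 : j ≤ n + d
        · rw [GG_mid hR hp a n j (by omega) h3, GG_mid hR hp a (n + 1) j (by omega) (by omega),
            if_pos h3, if_pos (by omega)]
          ring
        · rw [GG_high hR hp a ha n j (by omega) (by omega), if_neg h3]
          by_cases h4 : j ≤ n + 1 + d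
          · rw [GG_mid hR hp a (n + 1) j (by omega) (by omega), if_pos h4,
              show j - d - (d + 1) = n + 1 - (d + 1) by omega]
            ring
          · rw [GG_high hR hp a ha (n + 1) j (by omega) (by omega), if_neg h4]
            ring

lemma rpow_pow_le (hp : p.Prime) {c1 : ℝ} (hc1 : c1 ≤ 1) (hw0 : 0 ≤ w)
    (hw : (p : ℝ) ^ c1 * w ≤ 1) (m n : ℕ) :
    ((p ^ (m + n) : ℕ) : ℝ) ^ c1 * w ^ n ≤ (p : ℝ) ^ m := by
  have hp1 : (1 : ℝ) ≤ p := by exact_mod_cast hp.one_lt.le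
  have hp0 : (0 : ℝ) ≤ p := by linarith
  have h1 : ((p ^ (m + n) : ℕ) : ℝ) ^ c1 = ((p : ℝ) ^ c1) ^ m * ((p : ℝ) ^ c1) ^ n := by
    push_cast
    rw [← pow_add, ← Real.rpow_natCast, ← Real.rpow_natCast, ← Real.rpow_mul hp0,
      ← Real.rpow_mul hp0, mul_comm]
  rw [h1, mul_assoc, ← mul_pow]
  have h2 : ((p : ℝ) ^ c1 * w) ^ n ≤ 1 := pow_le_one₀ (by positivity) hw
  have h3 : ((p : ℝ) ^ c1) ^ m ≤ (p : ℝ) ^ m := by
    apply pow_le_pow_left₀ (by positivity)
    calc (p : ℝ) ^ c1 ≤ (p : ℝ) ^ (1 : ℝ) := Real.rpow_le_rpow_of_exponent_le hp1 hc1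
      _ = p := Real.rpow_one _
  calc ((p : ℝ) ^ c1) ^ m * ((p : ℝ) ^ c1 * w) ^ n ≤ (p : ℝ) ^ m * 1 :=
        mul_le_mul h3 h2 (by positivity) (by positivity)
    _ = _ := mul_one _

lemma vs_term (hR : RootAt h p d r) (hp : p.Prime) (a : ℤ) (ha : IsCoprime a (p : ℤ)) (j : ℕ)
    {c1 : ℝ} (hc1 : c1 ≤ 1) (hw0 : 0 ≤ w) (hw : (p : ℝ) ^ c1 * w ≤ 1) (i : ℕ) :
    ((p ^ (i + 1) : ℕ) : ℝ) ^ c1 *
      ‖PS463.mn h (vs p r (d + 1) w (i + 1)) (p ^ (i + 1)) (p ^ j) a‖ ≤
      (if i ≤ d then 2 * (p : ℝ) ^ (d + 1) else 0) +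
        (if i + 1 + d = j then (p : ℝ) ^ (d + 1) else 0) := by
  have hp1 : (1 : ℝ) ≤ p := by exact_mod_cast hp.one_lt.le
  have hP : 0 ≤ (p : ℝ) ^ (d + 1) := by positivity
  rw [mn_vs_succ hp]
  by_cases h1 : i ≤ d
  · rw [if_pos h1, show i + 1 - (d + 1) = 0 by omega, pow_zero, Complex.ofReal_one, one_mul]
    have h2 : ‖GG h p a (i + 1) j (r (i + 1)) - GG h p a i j (r i)‖ ≤ 2 := by
      refine (norm_sub_le _ _).trans ?_
      have := norm_GG_le h p hp a (i + 1) j (r (i + 1))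
      have := norm_GG_le h p hp a i j (r i)
      linarith
    have h3 := rpow_pow_le (w := 0) hp hc1 le_rfl (by simp) (i + 1) 0
    rw [pow_zero, mul_one, add_zero] at h3
    have h4 : (p : ℝ) ^ (i + 1) ≤ (p : ℝ) ^ (d + 1) := pow_le_pow_right₀ hp1 (by omega)
    have h5 : 0 ≤ (if i + 1 + d = j then (p : ℝ) ^ (d + 1) else 0) := by split_ifs <;> positivity
    calc _ ≤ (p : ℝ) ^ (d + 1) * 2 := mul_le_mul (h3.trans h4) h2 (norm_nonneg _) hP
      _ ≤ _ := by linarith
  · rw [if_neg h1, zero_add]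
    by_cases h2 : j ≤ i + d
    · rw [GG_mid hR hp a i j (by omega) h2, GG_mid hR hp a (i + 1) j (by omega) (by omega),
        sub_self, mul_zero, norm_zero, mul_zero]
      split_ifs <;> positivity
    · rw [GG_high hR hp a ha i j (by omega) (by omega)]
      by_cases h3 : i + 1 + d = j
      · rw [GG_mid hR hp a (i + 1) j (by omega) (by omega), if_pos h3, sub_zero, mul_one,
          Complex.norm_real, Real.norm_of_nonneg (by positivity)]
        have h4 := rpow_pow_le (w := w) hp hc1 hw0 hw (d + 1) (i + 1 - (d + 1))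
        rwa [show d + 1 + (i + 1 - (d + 1)) = i + 1 by omega] at h4
      · rw [GG_high hR hp a ha (i + 1) j (by omega) (by omega), if_neg h3, sub_zero, mul_zero,
          norm_zero, mul_zero]

theorem locP_small (hR : RootAt h p d r) (hp : p.Prime) {c1 : ℝ} (hc1 : c1 ≤ 1)
    (hw0 : 0 ≤ w) (hw1 : w ≤ 1) (hw : (p : ℝ) ^ c1 * w ≤ 1) (B : ℕ) (hB : 1 ≤ B) :
    LocP h p (vs p r (d + 1) w) B ((2 * d + 4) * (p : ℝ) ^ (d + 1)) c1 := by
  have hp1 : (1 : ℝ) ≤ p := by exact_mod_cast hp.one_lt.le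
  have hP : 0 ≤ (p : ℝ) ^ (d + 1) := by positivity
  refine ⟨fun x => rfl, ?_, ?_, ?_, ?_, ?_, ?_⟩
  · intro i x
    cases i with
    | zero => rfl
    | succ i =>
      rw [vs_succ, vs_succ, cls_per p (i + 1) (i + 1) le_rfl, cls_per p i (i + 1) (by omega)]
  · intro i x
    cases i with
    | zero =>
      unfold vs
      simp
    | succ i =>
      rw [vs_succ]
      have h1 := cls_nonneg p (i + 1) (r (i + 1)) x
      have h2 := cls_le p (i + 1) (r (i + 1)) x
      have h3 := cls_nonneg p i (r i) x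
      have h4 := cls_le p i (r i) x
      have h5 : (p : ℝ) ^ i ≤ (p : ℝ) ^ (i + 1) := pow_le_pow_right₀ hp1 (by omega)
      have h6 : w ^ (i + 1 - (d + 1)) ≤ 1 := pow_le_one₀ hw0 hw1
      have h7 : 0 ≤ w ^ (i + 1 - (d + 1)) := by positivity
      have h8 : (p : ℝ) ^ (i + 1) ≤ (((p ^ (i + 1) : ℕ)) : ℝ) ^ B := by
        push_cast
        exact le_self_pow₀ (one_le_pow₀ hp1) (by omega)
      rw [show w ^ (i + 1 - (d + 1)) * cls p (i + 1) (r (i + 1)) x +
        -w ^ (i + 1 - (d + 1)) * cls p i (r i) x =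
        w ^ (i + 1 - (d + 1)) * (cls p (i + 1) (r (i + 1)) x - cls p i (r i) x) by ring, abs_mul,
        abs_of_nonneg h7]
      have h9 : |cls p (i + 1) (r (i + 1)) x - cls p i (r i) x| ≤ (p : ℝ) ^ (i + 1) := by
        rw [abs_le]; constructor <;> linarith
      calc _ ≤ 1 * (p : ℝ) ^ (i + 1) := mul_le_mul h6 h9 (abs_nonneg _) (by norm_num)
        _ ≤ _ := by rw [one_mul]; exact h8
  · intro i j hji a _
    cases i with
    | zero => omega
    | succ i =>
      rw [mn_vs_succ hp, GG_low hR hp a (i + 1) j (by omega), GG_low hR hp a i j (by omega),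
        sub_self, mul_zero]
  · intro j hj a ha
    rw [vs_partial hR hp a ha j j le_rfl]
    split_ifs with h1 h2
    · rw [GG_low hR hp a j j le_rfl, Complex.one_im]
    · exact Complex.ofReal_im _
    · exact Complex.zero_im
  · intro j hj a ha
    rw [vs_partial hR hp a ha j j le_rfl]
    split_ifs with h1 h2
    · rw [GG_low hR hp a j j le_rfl, Complex.one_re]
      norm_num
    · rw [Complex.ofReal_re]
      positivity
    · exact le_rfl
  · intro j hj a ha
    rw [Finset.sum_range_succ']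
    have h1 : ((p ^ 0 : ℕ) : ℝ) ^ c1 * ‖PS463.mn h (vs p r (d + 1) w 0) (p ^ 0) (p ^ j) a‖ ≤
        (p : ℝ) ^ (d + 1) := by
      rw [mn_vs_zero hp]
      have := norm_GG_le h p hp a 0 j (r 0)
      simp only [pow_zero, Nat.cast_one, Real.one_rpow, one_mul]
      exact this.trans (one_le_pow₀ hp1)
    have h2 : ∑ i ∈ range j, ((p ^ (i + 1) : ℕ) : ℝ) ^ c1 *
        ‖PS463.mn h (vs p r (d + 1) w (i + 1)) (p ^ (i + 1)) (p ^ j) a‖ ≤
        (d + 1) * (2 * (p : ℝ) ^ (d + 1)) + (p : ℝ) ^ (d + 1) := by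
      refine (Finset.sum_le_sum fun i _ => vs_term hR hp a ha j hc1 hw0 hw i).trans ?_
      rw [Finset.sum_add_distrib]
      apply add_le_add
      · rw [← Finset.sum_filter, Finset.sum_const, nsmul_eq_mul]
        apply mul_le_mul_of_nonneg_right _ (by positivity)
        have : ((range j).filter (fun i => i ≤ d)).card ≤ d + 1 := by
          calc _ ≤ (range (d + 1)).card := by
                apply Finset.card_le_card
                intro i hi
                rw [Finset.mem_filter] at hi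
                exact Finset.mem_range.2 (by omega)
            _ = d + 1 := card_range _
        exact_mod_cast this
      · rw [← Finset.sum_filter, Finset.sum_const, nsmul_eq_mul]
        apply mul_le_of_le_one_left hP
        have : ((range j).filter (fun i => i + 1 + d = j)).card ≤ 1 := by
          rw [Finset.card_le_one]
          intro x hx y hy
          rw [Finset.mem_filter] at hx hy
          omega
        exact_mod_cast this
    calc _ ≤ ((d + 1) * (2 * (p : ℝ) ^ (d + 1)) + (p : ℝ) ^ (d + 1)) + (p : ℝ) ^ (d + 1) :=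
          add_le_add h2 h1
      _ = _ := by ring

end small

end Vale.Agent.P042.WA.W5
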